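import Vale.Agent.P281.H368.MFS.Iface
import Vale.Agent.P281.H167.RC.MainI

/-! P281, theorem MC (log canonical pairs with a Mori fibre space): the rows of the proof and the final
theorem, as propositions. -/

open scoped Manifold ContDiff Topology ComplexOrder
open Set Filter Vale.Agent.P281 Vale.Agent.P272.K Vale.Agent.P299
open Vale.Agent.P299.D (Ten tenPull FormM)

noncomputable section

namespace Vale.Agent.P281.H716.MC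

open Vale.Agent.P281.H713 Vale.Agent.P281.H713.SA Vale.Agent.P281.H716 Vale.Agent.P281.H167
open Vale.Agent.P281.H713.TL (IsPullSection kodF)
open Vale.Agent.P281.H368.MFS (IsSemiPos VolLoc ConAt SmallAt pull InKer)

/-- The point `x` belongs to a compact connected smooth fibre `c : G → X` of `φ : X → V` such that
`κ(G, K_G + Δ|_G) = -∞`. -/
def NegFib (n q g : ℕ) {X V : Type} [TopologicalSpace X] [ChartedSpace (Cm n) X]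
    [TopologicalSpace V] [ChartedSpace (Cm q) V] (φ : X → V) (Δ : Set X → ℝ) (x : X) : Prop :=
  ∃ (G : Type) (_ : TopologicalSpace G) (_ : T2Space G) (_ : CompactSpace G) (_ : ConnectedSpace G)
    (_ : ChartedSpace (Cm g) G) (_ : IsManifold 𝓘(ℂ, Cm g) ω G) (c : G → X),
    IsSmoothFibre (Cm n) (Cm q) (Cm g) φ c ∧ x ∈ range c ∧
    J.kod (Cm g) (fun (D : Set X) t e' => ∃ e, J.IsLocalEq (Cm n) D e (c t) ∧
      ∀ᶠ t' in 𝓝 t, e' t' = e (c t')) Δ = ⊥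

/-- the vector `v` at `z` is tangent to the fibres of `f` and of `φ ∘ j` -/
def Ker2 (n p q : ℕ) {X Z Y V : Type} [TopologicalSpace X] [ChartedSpace (Cm n) X]
    [TopologicalSpace Z] [ChartedSpace (Cm n) Z] [TopologicalSpace Y] [ChartedSpace (Cm p) Y]
    [TopologicalSpace V] [ChartedSpace (Cm q) V] (j : Z → X) (f : Z → Y) (φ : X → V) (z : Z)
    (v : Cm n) : Prop :=
  mfderiv 𝓘(ℂ, Cm n) 𝓘(ℂ, Cm p) f z v = 0 ∧
    mfderiv 𝓘(ℂ, Cm n) 𝓘(ℂ, Cm q) φ (j z)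
      (mfderiv 𝓘(ℂ, Cm n) 𝓘(ℂ, Cm n) j z v : Cm n) = 0

/-- **Row MC1**: the tensor `τ` with poles `≤ m Δ`, generically a multiple of the pull-back of
`(dy_1 ∧ ⋯ ∧ dy_p)^m` by `f`, and different from zero at `j z₀ = c t₀`, gives a section of
`m (K_G + Δ|_G)` on the fibre `c : G → X` of `φ`, if `G` is transversal to the fibre of `f`
(`T G ∩ ker df = 0`) at `t₀`: contract `τ` with `p - g` vectors `w_b` such that `dφ (w_b)` is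
constant. -/
def RestrPart : Prop := ∀ (n p q g m : ℕ) (_ : n = q + g) (X Z Y V G : Type)
  [TopologicalSpace X] [T2Space X] [ChartedSpace (Cm n) X] [IsManifold 𝓘(ℂ, Cm n) ω X]
  [TopologicalSpace Z] [ChartedSpace (Cm n) Z] [IsManifold 𝓘(ℂ, Cm n) ω Z]
  [TopologicalSpace Y] [ChartedSpace (Cm p) Y] [IsManifold 𝓘(ℂ, Cm p) ω Y]
  [TopologicalSpace V] [ChartedSpace (Cm q) V] [IsManifold 𝓘(ℂ, Cm q) ω V]
  [TopologicalSpace G] [T2Space G] [ConnectedSpace G] [ChartedSpace (Cm g) G]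
  [IsManifold 𝓘(ℂ, Cm g) ω G]
  (j : Z → X) (_ : J.IsBigOpen (Cm n) j) (f : Z → Y) (_ : ContMDiff 𝓘(ℂ, Cm n) 𝓘(ℂ, Cm p) ω f)
  (Δ : Set X → ℝ) (_ : J.IsSNC (Cm n) Δ) (K : Set X → ℕ) (_ : ∀ D, (K D : ℝ) = m * Δ D)
  (_ : 0 < m) (τ : Ten n (m * p) X) (_ : IsTenP (m * p) K τ)
  (O : Set Z) (_ : Dense (j '' O)) (_ : ∀ z ∈ O, ∀ D, Δ D ≠ 0 → j z ∉ D)
  (_ : ∀ z ∈ O, ∃ a : ℂ, ∀ e, At e (j z) → ∀ I,
    τ e (e (j z)) I = a * tT f m (fun z => e (j z)) I z)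
  (φ : X → V) (_ : ContMDiff 𝓘(ℂ, Cm n) 𝓘(ℂ, Cm q) ω φ)
  (c : G → X) (_ : IsSmoothFibre (Cm n) (Cm q) (Cm g) φ c)
  (z₀ : Z) (t₀ : G) (_ : c t₀ = j z₀) (_ : ∀ D, Δ D ≠ 0 → j z₀ ∉ D) (a : ℂ) (_ : a ≠ 0)
  (_ : ∀ e, At e (j z₀) → ∀ I, τ e (e (j z₀)) I = a * tT f m (fun z => e (j z)) I z₀)
  (_ : Function.Surjective (mfderiv 𝓘(ℂ, Cm n) 𝓘(ℂ, Cm p) f z₀))
  (_ : ∀ v, Ker2 n p q j f φ z₀ v → v = 0),
  ∃ s : G → ℂ, J.IsSection (Cm g) (fun (D : Set X) t e' => ∃ e, J.IsLocalEq (Cm n) D e (c t) ∧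
      ∀ᶠ t' in 𝓝 t, e' t' = e (c t')) m K s ∧ s t₀ ≠ 0

/-- **Row MC2**: closedness (compactness of the unit sphere). -/
def KerClos : Prop := ∀ (n p q : ℕ) (X Z Y V : Type)
  [TopologicalSpace X] [ChartedSpace (Cm n) X] [IsManifold 𝓘(ℂ, Cm n) ω X]
  [TopologicalSpace Z] [ChartedSpace (Cm n) Z] [IsManifold 𝓘(ℂ, Cm n) ω Z]
  [TopologicalSpace Y] [ChartedSpace (Cm p) Y] [IsManifold 𝓘(ℂ, Cm p) ω Y]
  [TopologicalSpace V] [ChartedSpace (Cm q) V] [IsManifold 𝓘(ℂ, Cm q) ω V]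
  (j : Z → X) (_ : J.IsBigOpen (Cm n) j) (f : Z → Y) (_ : ContMDiff 𝓘(ℂ, Cm n) 𝓘(ℂ, Cm p) ω f)
  (φ : X → V) (_ : ContMDiff 𝓘(ℂ, Cm n) 𝓘(ℂ, Cm q) ω φ)
  (_ : Dense {z : Z | ∃ v, v ≠ 0 ∧ Ker2 n p q j f φ z v}) (z : Z),
  ∃ v, v ≠ 0 ∧ Ker2 n p q j f φ z v

/-- **Row MC3** (on the fibre `F` of `f`): `m (K_F + Δ|_F)` is numerically `m (θ - α) + N`, where `θ|_F`
is nowhere positive definite: the sections vanish. -/
def FibVan : Prop := ∀ (n p d : ℕ) (_ : n = p + d) (X Z Y F : Type)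
  [TopologicalSpace X] [T2Space X] [CompactSpace X] [ConnectedSpace X]
  [ChartedSpace (Cm n) X] [IsManifold 𝓘(ℂ, Cm n) ω X]
  [TopologicalSpace Z] [ChartedSpace (Cm n) Z] [IsManifold 𝓘(ℂ, Cm n) ω Z]
  [TopologicalSpace Y] [T2Space Y] [ConnectedSpace Y]
  [ChartedSpace (Cm p) Y] [IsManifold 𝓘(ℂ, Cm p) ω Y]
  [TopologicalSpace F] [T2Space F] [CompactSpace F] [ConnectedSpace F]
  [ChartedSpace (Cm d) F] [IsManifold 𝓘(ℂ, Cm d) ω F]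
  (χ : FormM n X) (_ : IsKahler χ)
  (Δ : Set X → ℝ) (_ : J.IsSNC (Cm n) Δ)
  (m : ℕ) (_ : 0 < m) (k : Set X → ℕ) (_ : ∀ D, (k D : ℝ) = m * Δ D)
  (α θ : FormM n X) (_ : IsSemiPos α) (_ : IsSemiPos θ) (W : X → ℝ)
  (j : Z → X) (_ : J.IsBigOpen (Cm n) j) (f : Z → Y) (_ : ContMDiff 𝓘(ℂ, Cm n) 𝓘(ℂ, Cm p) ω f)
  (i : F → Z) (_ : IsSmoothFibre (Cm n) (Cm p) (Cm d) f i)
  (_ : ∀ D, Δ D ≠ 0 → ∃ t, j (i t) ∉ D)
  (_ : Dense {t | (pull (fun t => j (i t)) α (chartAt (Cm d) t) (chartAt (Cm d) t t)).PosDef})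
  (_ : ∀ t, (pull (fun t => j (i t)) θ (chartAt (Cm d) t) (chartAt (Cm d) t t)).rank < d)
  (νF : ℕ) (_ : ∃ t, νF ≤ (pull (fun t => j (i t)) θ (chartAt (Cm d) t) (chartAt (Cm d) t t)).rank)
  (_ : ∀ t : F, ∃ (r : ℕ) (g : Fin r → X → ℂ) (a : Fin r → ℕ),
    VolLoc n m (fun (D : Set X) z g => J.IsLocalEq (Cm n) D g z) k W α θ (j (i t)) g a ∧
    (∀ l, J.dif (Cm d) (fun t => g l (j (i t))) t ≠ 0) ∧
    ∀ᶠ s in 𝓝 t, ∀ l, g l (j (i s)) = 0 →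
      ConAt d (fun t => g l (j (i t))) (pull (fun t => j (i t)) α)
        (pull (fun t => j (i t)) θ) s ∨
      SmallAt d νF (fun t => g l (j (i t))) (pull (fun t => j (i t)) θ) s)
  (m₁ : ℕ) (_ : 0 < m₁) (k₁ : Set X → ℕ)
  (_ : ∀ D, (k₁ D : ℝ) = m₁ * Δ D) (σ : F → ℂ)
  (_ : J.IsSection (Cm d) (fun (D : Set X) t g => ∃ e, J.IsLocalEq (Cm n) D e (j (i t)) ∧
      ∀ᶠ t' in 𝓝 t, g t' = e (j (i t'))) m₁ k₁ σ) (t : F)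
  (_ : ∀ D, k₁ D ≠ 0 → ∃ g : F → ℂ, (∃ e, J.IsLocalEq (Cm n) D e (j (i t)) ∧
      ∀ᶠ t' in 𝓝 t, g t' = e (j (i t'))) ∧ g t ≠ 0), σ t = 0

/-- **Theorem MC**: `κ(F, K_F + Δ|_F) = -∞` or `κ(f | Δ) = -∞` if `Δ` is a SNC boundary (coefficients
`≤ 1`), through the points of a dense set pass compact smooth fibres `G` of a holomorphic map
`φ : X → V` with `κ(G, K_G + Δ|_G) = -∞`, and, on `F`, `m (K_F + Δ|_F)` is numerically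
`m (θ - α) + N`, where `ker dφ ⊆ ker θ`. -/
def MainPartB : Prop := ∀ (n p d q g : ℕ) (_ : n = p + d) (_ : n = q + g) (X Z Y F V : Type)
  [TopologicalSpace X] [T2Space X] [CompactSpace X] [ConnectedSpace X]
  [ChartedSpace (Cm n) X] [IsManifold 𝓘(ℂ, Cm n) ω X]
  [TopologicalSpace Z] [ChartedSpace (Cm n) Z] [IsManifold 𝓘(ℂ, Cm n) ω Z]
  [TopologicalSpace Y] [T2Space Y] [ConnectedSpace Y]
  [ChartedSpace (Cm p) Y] [IsManifold 𝓘(ℂ, Cm p) ω Y]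
  [TopologicalSpace F] [T2Space F] [CompactSpace F] [ConnectedSpace F]
  [ChartedSpace (Cm d) F] [IsManifold 𝓘(ℂ, Cm d) ω F]
  [TopologicalSpace V] [ChartedSpace (Cm q) V] [IsManifold 𝓘(ℂ, Cm q) ω V]
  (χ : FormM n X) (_ : IsKahler χ)
  (Δ : Set X → ℝ) (_ : J.IsSNC (Cm n) Δ)
  (j : Z → X) (_ : J.IsBigOpen (Cm n) j) (f : Z → Y) (_ : ContMDiff 𝓘(ℂ, Cm n) 𝓘(ℂ, Cm p) ω f)
  (i : F → Z) (_ : IsSmoothFibre (Cm n) (Cm p) (Cm d) f i)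
  (_ : ∀ D, Δ D ≠ 0 → ∃ t, j (i t) ∉ D)
  (φ : X → V) (_ : ContMDiff 𝓘(ℂ, Cm n) 𝓘(ℂ, Cm q) ω φ) (_ : Dense {x | NegFib n q g φ Δ x})
  (m : ℕ) (_ : 0 < m) (k : Set X → ℕ) (_ : ∀ D, (k D : ℝ) = m * Δ D)
  (α θ : FormM n X) (_ : IsSemiPos α) (_ : IsSemiPos θ)
  (_ : ∀ (t : F) (v : Cm n), mfderiv 𝓘(ℂ, Cm n) 𝓘(ℂ, Cm q) φ (j (i t)) v = 0 →
    InKer (θ (chartAt (Cm n) (j (i t))) (chartAt (Cm n) (j (i t)) (j (i t)))) v)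
  (W : X → ℝ)
  (_ : Dense {t | (pull (fun t => j (i t)) α (chartAt (Cm d) t) (chartAt (Cm d) t t)).PosDef})
  (νF : ℕ) (_ : ∃ t, νF ≤ (pull (fun t => j (i t)) θ (chartAt (Cm d) t) (chartAt (Cm d) t t)).rank)
  (_ : ∀ t : F, ∃ (r : ℕ) (g : Fin r → X → ℂ) (a : Fin r → ℕ),
    VolLoc n m (fun (D : Set X) z g => J.IsLocalEq (Cm n) D g z) k W α θ (j (i t)) g a ∧
    (∀ l, J.dif (Cm d) (fun t => g l (j (i t))) t ≠ 0) ∧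
    ∀ᶠ s in 𝓝 t, ∀ l, g l (j (i s)) = 0 →
      ConAt d (fun t => g l (j (i t))) (pull (fun t => j (i t)) α)
        (pull (fun t => j (i t)) θ) s ∨
      SmallAt d νF (fun t => g l (j (i t))) (pull (fun t => j (i t)) θ) s),
  J.kod (Cm d) (fun (D : Set X) t g => ∃ e, J.IsLocalEq (Cm n) D e (j (i t)) ∧
      ∀ᶠ t' in 𝓝 t, g t' = e (j (i t'))) Δ + kodF (n := n) (p := p) Δ j f = ⊥

end Vale.Agent.P281.H716.MC
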